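import Vale.Agent.P101.StmtZ
import Vale.Agent.P095K.GStmt

/-!
Definitions used in the statement of the stronger form: strong cocycle conjugacy, absorption of the
Jiang-Su algebra, C*-algebras generated by a covariant pair, fixed point algebras.
-/

open Filter Topology
open scoped MultiplierAlgebra TensorProduct

namespace Vale.Agent.P095.H586

universe u w

open Vale.Agent.P101 Vale.Agent.P095K

/-- The actions `α` on `A` and `β` on `B` are strongly cocycle conjugate, by an isomorphism which is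
approximately unitarily equivalent to the map `i : A → B`: there are a star-isomorphism
`Φ : A → B`, a `β`-cocycle `u` of unitary multipliers of `B` (written as in `IsCocycleConj`) and
unitary multipliers `V n` of `B` with `Φ (α_g(a)) = u_g β_g(Φ(a)) u_g^*`,
`V_n i(a) V_n^* → Φ(a)` in norm for all `a`, and `V_n β_g(V_n^*) → u_g` in norm for all `g`. -/
structure IsStrongCocycleConj {A B : Type u} [NonUnitalCStarAlgebra A] [NonUnitalCStarAlgebra B]
    {G : Type w} [Group G] (i : A → B) (α : G →* (A ≃⋆ₐ[ℂ] A)) (β : G →* (B ≃⋆ₐ[ℂ] B)) :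
    Prop where
  conj : ∃ (Φ : A ≃⋆ₐ[ℂ] B) (u : G → 𝓜(ℂ, B)) (V : ℕ → 𝓜(ℂ, B)),
    (∀ g, u g ∈ unitary 𝓜(ℂ, B)) ∧
    (∀ g h b, (u (g * h)).fst (β g b) = (u g).fst (β g ((u h).fst b))) ∧
    (∀ g a, ((Φ (α g a) : B) : 𝓜(ℂ, B)) = u g * ((β g (Φ a) : B) : 𝓜(ℂ, B)) * star (u g)) ∧
    (∀ n, V n ∈ unitary 𝓜(ℂ, B)) ∧
    (∀ a, Tendsto (fun n => V n * ((i a : B) : 𝓜(ℂ, B)) * star (V n)) atTop
      (𝓝 ((Φ a : B) : 𝓜(ℂ, B)))) ∧
    ∀ g (ε : ℝ), 0 < ε → ∀ᶠ n in atTop, ∀ b,
      ‖(V n).fst (β g ((star (V n)).fst b)) - (u g).fst (β g b)‖ ≤ ε * ‖b‖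

/-- `C` absorbs the Jiang-Su algebra: for every C*-completion `B` of `C ⊗ Z` there is an
isomorphism `Φ : C → B` which is approximately unitarily equivalent to `c ↦ c ⊗ 1`. -/
def AbsorbsJiangSu (C : Type u) [NonUnitalCStarAlgebra C] : Prop :=
  ∀ (Z B : Type u) [CStarAlgebra Z] [NonUnitalCStarAlgebra B] (T : C →ₗ[ℂ] Z →ₗ[ℂ] B),
    IsJiangSuAlgebra Z → IsTensorProd T →
      ∃ (Φ : C ≃⋆ₐ[ℂ] B) (V : ℕ → 𝓜(ℂ, B)), (∀ n, V n ∈ unitary 𝓜(ℂ, B)) ∧
        ∀ c, Tendsto (fun n => V n * ((T c 1 : B) : 𝓜(ℂ, B)) * star (V n)) atTop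
          (𝓝 ((Φ c : B) : 𝓜(ℂ, B)))

/-- `C`, embedded by `ι` in the unital C*-algebra `D`, is the C*-algebra generated by a covariant
pair `(π, v)` of the action `α` of `G` on `A`, twisted by the scalars `ω`: it is the closed linear
span of the products `π(a) v_g`. -/
structure IsCovariantImage {A C D : Type u} [NonUnitalCStarAlgebra A] [NonUnitalCStarAlgebra C]
    [CStarAlgebra D] {G : Type w} [Group G] (α : G →* (A ≃⋆ₐ[ℂ] A)) (ω : G → G → ℂ)
    (π : A →⋆ₙₐ[ℂ] D) (v : G → D) (ι : C →⋆ₙₐ[ℂ] D) : Prop where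
  unitary : ∀ g, v g ∈ unitary D
  mul : ∀ g h, v g * v h = ω g h • v (g * h)
  covariant : ∀ g a, v g * π a * star (v g) = π (α g a)
  injective : Function.Injective ι
  range : Set.range ι = closure (Submodule.span ℂ {x : D | ∃ a g, x = π a * v g} : Set D)

/-- Every C*-algebra generated by a (scalar twisted) covariant pair of `α` absorbs the Jiang-Su
algebra; in particular the full and the reduced (twisted) crossed products by `α` do. -/
def CrossedProductsAbsorb {A : Type u} [NonUnitalCStarAlgebra A] {G : Type w} [Group G]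
    (α : G →* (A ≃⋆ₐ[ℂ] A)) : Prop :=
  ∀ (C D : Type u) [NonUnitalCStarAlgebra C] [CStarAlgebra D] (ω : G → G → ℂ)
    (π : A →⋆ₙₐ[ℂ] D) (v : G → D) (ι : C →⋆ₙₐ[ℂ] D), IsCovariantImage α ω π v ι →
      AbsorbsJiangSu C

/-- The fixed point algebra of `α` (any C*-algebra `E` with an embedding `κ` in `A` whose range is
`{a | α_g(a) = a for all g}`) absorbs the Jiang-Su algebra. -/
def FixedPointsAbsorb {A : Type u} [NonUnitalCStarAlgebra A] {G : Type w} [Group G]
    (α : G →* (A ≃⋆ₐ[ℂ] A)) : Prop :=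
  ∀ (E : Type u) [NonUnitalCStarAlgebra E] (κ : E →⋆ₙₐ[ℂ] A), Function.Injective κ →
    Set.range κ = {a | ∀ g, α g a = a} → AbsorbsJiangSu E

end Vale.Agent.P095.H586
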