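import Vale.Agent.P095.H987.Strong
import Vale.Agent.P095.H586.Defs

/-!
From the strong form of equivariant absorption to the definitions of the final statement.
-/

open Filter Topology
open scoped MultiplierAlgebra TensorProduct

namespace Vale.Agent.P095.H586

universe u w

open Vale.Agent.P101 Vale.Agent.P095K Vale.Agent.P095R Vale.Agent.P095.H987

theorem tensorCompletionN_of_prod {A Z B : Type u} [NonUnitalCStarAlgebra A]
    [CStarAlgebra Z] [NonUnitalCStarAlgebra B] {T : A →ₗ[ℂ] Z →ₗ[ℂ] B} (h : IsTensorProd T) :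
    IsTensorCompletionN T := ⟨h.map_mul, h.map_star, h.injective, h.dense⟩

theorem strong_conj {A Z B : Type u} [NonUnitalCStarAlgebra A] [CStarAlgebra Z]
    [NonUnitalCStarAlgebra B] {G : Type w} [Group G] {α : G →* (A ≃⋆ₐ[ℂ] A)}
    (h : StronglyZStableN α) (hZ : IsJiangSuAlgebra Z) (T : A →ₗ[ℂ] Z →ₗ[ℂ] B)
    (hT : IsTensorProd T) (β : G →* (B ≃⋆ₐ[ℂ] B)) (hβ : ∀ g a z, β g (T a z) = T (α g a) z) :
    IsStrongCocycleConj (fun a => T a 1) α β := by
  obtain ⟨Φ, u, V, hV, hu, hc, hΦ, hlim, hcob⟩ :=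
    h.conj Z B T β hZ (tensorCompletionN_of_prod hT) hβ
  refine ⟨Φ, u, V, hu, fun g k b => ?_, hΦ, hV, hlim, fun g ε hε => ?_⟩
  · rw [hc g k, DoubleCentralizer.mul_fst]
    show (u g).fst ((multAut (β g) (u k)).fst (β g b)) = _
    rw [multAut_fst, StarAlgEquiv.symm_apply_apply]
  · have h1 : ∀ᶠ n in atTop, ‖V n * star (multAut (β g) (V n)) - u g‖ < ε := by
      have := (tendsto_iff_norm_sub_tendsto_zero.1 (hcob g)).eventually (gt_mem_nhds hε)
      exact this
    filter_upwards [h1] with n hn b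
    have e : (V n).fst (β g ((star (V n)).fst b)) - (u g).fst (β g b) =
        (V n * star (multAut (β g) (V n)) - u g).fst (β g b) := by
      rw [DoubleCentralizer.sub_fst, DoubleCentralizer.mul_fst, ← map_star]
      show _ = (V n).fst ((multAut (β g) (star (V n))).fst (β g b)) - (u g).fst (β g b)
      rw [multAut_fst, StarAlgEquiv.symm_apply_apply]
    rw [e]
    refine ((V n * star (multAut (β g) (V n)) - u g).fst.le_opNorm (β g b)).trans ?_
    rw [DoubleCentralizer.norm_fst]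
    exact mul_le_mul hn.le (NonUnitalStarAlgHom.norm_apply_le (β g) b) (norm_nonneg _) hε.le

theorem absorbs_of_strong {C : Type u} [NonUnitalCStarAlgebra C] {G : Type w} [Group G]
    (h : StronglyZStableN (1 : G →* (C ≃⋆ₐ[ℂ] C))) : AbsorbsJiangSu C := by
  intro Z B _ _ T hZ hT
  obtain ⟨Φ, u, V, hV, hu, hc, hΦ, hlim, hcob⟩ :=
    h.conj Z B T (1 : G →* (B ≃⋆ₐ[ℂ] B)) hZ (tensorCompletionN_of_prod hT) (fun _ _ _ => rfl)
  exact ⟨Φ, V, hV, hlim⟩

theorem absorbs_of_noChar {C : Type u} [NonUnitalCStarAlgebra C]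
    [TopologicalSpace.SeparableSpace C]
    (hN : NoCharLocalN (1 : PUnit.{1} →* (C ≃⋆ₐ[ℂ] C))) : AbsorbsJiangSu C :=
  absorbs_of_strong (strong_of_local _ hN)

end Vale.Agent.P095.H586
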