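import Vale.Agent.P095.H586.Defs

/-!
Definition used for finite groups: conjugacy by invariant unitaries.
-/

open Filter Topology
open scoped MultiplierAlgebra TensorProduct

namespace Vale.Agent.P095.H586

universe u w

/-- The actions `α` on `A` and `β` on `B` are (genuinely) conjugate, by an isomorphism which is
approximately unitarily equivalent to the map `i : A → B` by invariant unitaries: there are a
star-isomorphism `Φ : A → B` with `Φ (α_g(a)) = β_g(Φ(a))` and unitary multipliers `W n` of `B`,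
which are fixed by `β` (that is, `W_n β_g(b) = β_g(W_n b)`), with `W_n i(a) W_n^* → Φ(a)` in norm
for all `a`. -/
structure IsInvariantConj {A B : Type u} [NonUnitalCStarAlgebra A] [NonUnitalCStarAlgebra B]
    {G : Type w} [Group G] (i : A → B) (α : G →* (A ≃⋆ₐ[ℂ] A)) (β : G →* (B ≃⋆ₐ[ℂ] B)) :
    Prop where
  conj : ∃ (Φ : A ≃⋆ₐ[ℂ] B) (W : ℕ → 𝓜(ℂ, B)),
    (∀ g a, Φ (α g a) = β g (Φ a)) ∧
    (∀ n, W n ∈ unitary 𝓜(ℂ, B)) ∧
    (∀ n g b, (W n).fst (β g b) = β g ((W n).fst b)) ∧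
    ∀ a, Tendsto (fun n => W n * ((i a : B) : 𝓜(ℂ, B)) * star (W n)) atTop
      (𝓝 ((Φ a : B) : 𝓜(ℂ, B)))

end Vale.Agent.P095.H586
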