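import Vale.Agent.P095.H586.Main
import Vale.Agent.P095.H586.FinDefs
import Vale.Agent.P095.H413.Main
import Vale.Agent.P095.H753.Finite

/-!
Assembly of the stronger form: the separate clauses.
-/

open Filter Topology
open scoped MultiplierAlgebra TensorProduct

namespace Vale.Agent.P095.H586

universe u w

open Vale.Agent.P101 Vale.Agent.P095K Vale.Agent.P095R Vale.Agent.P095 Vale.Agent.P095H
open Vale.Agent.P095.H413 Vale.Agent.P095.KR

/-- A strong conjugacy of actions of a finite group gives a genuine one. -/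
theorem invariantConj_of_strong {A B : Type u} [NonUnitalCStarAlgebra A]
    [NonUnitalCStarAlgebra B] {G : Type w} [Group G] [Finite G] {i : A → B}
    {α : G →* (A ≃⋆ₐ[ℂ] A)} {β : G →* (B ≃⋆ₐ[ℂ] B)} (h : IsStrongCocycleConj i α β) :
    IsInvariantConj i α β :=
  ⟨Vale.Agent.P095.H753.finite_conj h⟩

/-- Groups which are amenable modulo inner and centrally trivial automorphisms. -/
theorem outer_actions {A Z B : Type u} [NonUnitalCStarAlgebra A] [CStarAlgebra Z]
    [NonUnitalCStarAlgebra B] [TopologicalSpace.SeparableSpace A] (hS : IsSimpleAlg A)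
    (hA : IsNuclearAlg A) (hZ : IsJiangSuAlgebra Z) (hZ' : IsStronglySelfAbsorbing Z)
    (T : A →ₗ[ℂ] Z →ₗ[ℂ] B) (hB : IsTensorProd T) (hAB : Nonempty (A ≃⋆ₐ[ℂ] B))
    {G : Type w} [Group G] [Countable G] (N : Subgroup G) [N.Normal] (hQ : IsAmenable (G ⧸ N))
    (α : G →* (A ≃⋆ₐ[ℂ] A)) (β : G →* (B ≃⋆ₐ[ℂ] B))
    (hα : ∀ n ∈ N, IsInner (α n) ∨ IsCentrallyTrivial (α n))
    (hβ : ∀ g a z, β g (T a z) = T (α g a) z) :
    IsStrongCocycleConj (fun a => T a 1) α β ∧ CrossedProductsAbsorb α := by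
  have h := Vale.Agent.P095H.noCharLocalN_main hS hA hZ hZ' T hB hAB N hQ α hα
  exact ⟨Vale.Agent.P095.H413.strong_of_local α h T β hZ hB.isTensorCompletionN hβ,
    crossedProductsAbsorb_of α h⟩

/-- General separable algebras and countable groups. -/
theorem general_actions {A Z B : Type u} [NonUnitalCStarAlgebra A] [CStarAlgebra Z]
    [NonUnitalCStarAlgebra B] [TopologicalSpace.SeparableSpace A]
    (hZ : IsJiangSuAlgebra Z) (hZ' : IsStronglySelfAbsorbing Z)
    (T : A →ₗ[ℂ] Z →ₗ[ℂ] B) (hB : IsTensorProd T)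
    {G : Type w} [Group G] [Countable G]
    (α : G →* (A ≃⋆ₐ[ℂ] A)) (β : G →* (B ≃⋆ₐ[ℂ] B))
    (hβ : ∀ g a z, β g (T a z) = T (α g a) z) :
    (∀ μ : Filter ℕ, NeBot μ → μ ≤ atTop →
      List.TFAE [HasNoCharacters α μ, IsCocycleConj α β,
        IsStrongCocycleConj (fun a => T a 1) α β]) ∧
    (IsCocycleConj α β → CrossedProductsAbsorb α ∧
      (Finite G → IsInvariantConj (fun a => T a 1) α β ∧ FixedPointsAbsorb α)) := by
  refine ⟨fun μ hn hμ => KR.equivariant hZ hZ' hB hβ hμ, fun h => ?_⟩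
  have hl : NoCharLocalN α := KR.local_of_conj hZ hZ' hB hβ h
  refine ⟨crossedProductsAbsorb_of α hl, fun hG => ⟨?_, ?_⟩⟩
  · exact invariantConj_of_strong
      (Vale.Agent.P095.H413.strong_of_local α hl T β hZ hB.isTensorCompletionN hβ)
  · exact fixedPointsAbsorb_of α hl

end Vale.Agent.P095.H586
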