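import Vale.Agent.P095.Bdl.B6
import Vale.Agent.P095.H586.Defs

/-!
Fixed point algebras of finite groups inherit the local form of absence of characters.
-/

open Filter Topology
open scoped MultiplierAlgebra TensorProduct

namespace Vale.Agent.P095.H586

universe u w

open Vale.Agent.P095R

variable {A : Type u} [NonUnitalCStarAlgebra A]

theorem fix_step {a p q P Q : A} {R δ M D : ℝ} (hp : ‖p‖ ≤ R) (hQ : ‖Q‖ ≤ M)
    (hP : ‖P‖ ≤ M) (hc : ‖p * a - a * p‖ ≤ δ) (hq : ‖a * q - a * p‖ ≤ δ)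
    (hD : ‖a * Q - a * P‖ ≤ D) : ‖a * (q * Q) - a * (p * P)‖ ≤ 3 * δ * M + R * D := by
  have hδ : 0 ≤ δ := (norm_nonneg _).trans hc
  have hM : 0 ≤ M := (norm_nonneg _).trans hQ
  have hR : 0 ≤ R := (norm_nonneg _).trans hp
  have e : a * (q * Q) - a * (p * P) =
      (a * q - a * p) * Q - (p * a - a * p) * (Q - P) + p * (a * Q - a * P) := by
    noncomm_ring
  rw [e]
  have h1 : ‖(a * q - a * p) * Q‖ ≤ δ * M :=
    (norm_mul_le _ _).trans (mul_le_mul hq hQ (norm_nonneg _) hδ)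
  have h2 : ‖(p * a - a * p) * (Q - P)‖ ≤ δ * (M + M) :=
    (norm_mul_le _ _).trans (mul_le_mul hc ((norm_sub_le _ _).trans (add_le_add hQ hP))
      (norm_nonneg _) hδ)
  have h3 : ‖p * (a * Q - a * P)‖ ≤ R * D :=
    (norm_mul_le _ _).trans (mul_le_mul hp hD (norm_nonneg _) hR)
  have h4 := norm_add_le ((a * q - a * p) * Q - (p * a - a * p) * (Q - P)) (p * (a * Q - a * P))
  have h5 := norm_sub_le ((a * q - a * p) * Q) ((p * a - a * p) * (Q - P))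
  linarith

theorem norm_mul_le_pow {p q : A} {R M : ℝ} (hp : ‖p‖ ≤ R) (hq : ‖q‖ ≤ M) (hR : 0 ≤ R) :
    ‖p * q‖ ≤ R * M :=
  (norm_mul_le _ _).trans (mul_le_mul hp hq (norm_nonneg _) hR)

theorem fix_four {a p1 p2 p3 p4 q1 q2 q3 q4 : A} {R δ : ℝ}
    (h1 : ‖p1‖ ≤ R) (h2 : ‖p2‖ ≤ R) (h3 : ‖p3‖ ≤ R) (h4 : ‖p4‖ ≤ R)
    (k2 : ‖q2‖ ≤ R) (k3 : ‖q3‖ ≤ R) (k4 : ‖q4‖ ≤ R)
    (c1 : ‖p1 * a - a * p1‖ ≤ δ) (c2 : ‖p2 * a - a * p2‖ ≤ δ) (c3 : ‖p3 * a - a * p3‖ ≤ δ)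
    (d1 : ‖a * q1 - a * p1‖ ≤ δ) (d2 : ‖a * q2 - a * p2‖ ≤ δ) (d3 : ‖a * q3 - a * p3‖ ≤ δ)
    (d4 : ‖a * q4 - a * p4‖ ≤ δ) :
    ‖a * (q1 * (q2 * (q3 * q4))) - a * (p1 * (p2 * (p3 * p4)))‖ ≤ 10 * δ * R ^ 3 := by
  have hR : 0 ≤ R := (norm_nonneg _).trans h1
  have s3 := fix_step h3 k4 h4 c3 d3 d4
  have s2 := fix_step h2 (norm_mul_le_pow k3 k4 hR) (norm_mul_le_pow h3 h4 hR) c2 d2 s3
  have s1 := fix_step h1 (norm_mul_le_pow k2 (norm_mul_le_pow k3 k4 hR) hR)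
    (norm_mul_le_pow h2 (norm_mul_le_pow h3 h4 hR) hR) c1 d1 s2
  refine s1.trans (le_of_eq ?_)
  ring

theorem fix_W {m : ℕ} {a : A} {x y : Fin 4 → Fin m → A} {R δ : ℝ}
    (hx : ∀ q i, ‖x q i‖ ≤ R) (hy : ∀ q i, ‖y q i‖ ≤ R)
    (hc : ∀ q i, ‖x q i * a - a * x q i‖ ≤ δ) (hd : ∀ q i, ‖a * y q i - a * x q i‖ ≤ δ) :
    ‖a * (∑ i, y 0 i * (y 1 i * y 2 i - y 2 i * y 1 i) * y 3 i) -
      a * (∑ i, x 0 i * (x 1 i * x 2 i - x 2 i * x 1 i) * x 3 i)‖ ≤ m * (20 * δ * R ^ 3) := by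
  rw [Finset.mul_sum, Finset.mul_sum, ← Finset.sum_sub_distrib]
  have : ∀ i ∈ (Finset.univ : Finset (Fin m)),
      ‖a * (y 0 i * (y 1 i * y 2 i - y 2 i * y 1 i) * y 3 i) -
        a * (x 0 i * (x 1 i * x 2 i - x 2 i * x 1 i) * x 3 i)‖ ≤ 20 * δ * R ^ 3 := by
    intro i _
    have e : a * (y 0 i * (y 1 i * y 2 i - y 2 i * y 1 i) * y 3 i) -
        a * (x 0 i * (x 1 i * x 2 i - x 2 i * x 1 i) * x 3 i) =
        (a * (y 0 i * (y 1 i * (y 2 i * y 3 i))) - a * (x 0 i * (x 1 i * (x 2 i * x 3 i)))) -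
        (a * (y 0 i * (y 2 i * (y 1 i * y 3 i))) - a * (x 0 i * (x 2 i * (x 1 i * x 3 i)))) := by
      noncomm_ring
    rw [e]
    have f1 := fix_four (hx 0 i) (hx 1 i) (hx 2 i) (hx 3 i) (hy 1 i) (hy 2 i) (hy 3 i)
      (hc 0 i) (hc 1 i) (hc 2 i) (hd 0 i) (hd 1 i) (hd 2 i) (hd 3 i)
    have f2 := fix_four (hx 0 i) (hx 2 i) (hx 1 i) (hx 3 i) (hy 2 i) (hy 1 i) (hy 3 i)
      (hc 0 i) (hc 2 i) (hc 1 i) (hd 0 i) (hd 2 i) (hd 1 i) (hd 3 i)
    refine (norm_sub_le _ _).trans ?_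
    linarith
  refine (norm_sum_le_of_le _ this).trans (le_of_eq ?_)
  simp

theorem noChar_of_fixed {E : Type u} [NonUnitalCStarAlgebra E] {G : Type w} [Group G] [Finite G]
    (α : G →* (A ≃⋆ₐ[ℂ] A)) (hN : NoCharLocalN α) (κ : E →⋆ₙₐ[ℂ] A)
    (hκ : Function.Injective κ) (hr : Set.range κ = {a | ∀ g, α g a = a}) :
    NoCharLocalN (1 : PUnit.{1} →* (E ≃⋆ₐ[ℂ] E)) := by
  classical
  have _ : Fintype G := Fintype.ofFinite G
  obtain ⟨m, R₀, h⟩ := hN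
  have hnorm : ∀ x, ‖κ x‖ = ‖x‖ := NonUnitalStarAlgHom.norm_map κ hκ
  set R : ℝ := max R₀ 1 with hR
  have hR1 : 1 ≤ R := le_max_right _ _
  refine ⟨m, R, fun F S ε hε => ?_⟩
  set δ : ℝ := ε / (1 + m * (20 * R ^ 3)) with hδ
  have hden : 0 < 1 + m * (20 * R ^ 3) := by positivity
  have hδ0 : 0 < δ := by positivity
  have hδe : δ + m * (20 * δ * R ^ 3) = ε := by
    rw [hδ]; field_simp
  have hδle : δ ≤ ε := by
    have : 0 ≤ m * (20 * δ * R ^ 3) := by positivity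
    linarith
  obtain ⟨x, hx1, hx2, hx3, hx4⟩ := h (F.image κ) Finset.univ δ hδ0
  have hxR : ∀ q i, ‖x q i‖ ≤ R := fun q i => (hx1 q i).trans (le_max_left _ _)
  set N : ℝ := (Fintype.card G : ℝ) with hNdef
  have hNpos : 0 < N := by rw [hNdef]; exact_mod_cast Fintype.card_pos
  -- the average
  set y : Fin 4 → Fin m → A := fun q i => ((N⁻¹ : ℝ) : ℂ) • ∑ g, α g (x q i) with hy
  have hαn : ∀ g a, ‖α g a‖ ≤ ‖a‖ := fun g a => NonUnitalStarAlgHom.norm_apply_le (α g) a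
  have hsmul : ∀ z : A, ‖((N⁻¹ : ℝ) : ℂ) • z‖ = N⁻¹ * ‖z‖ := by
    intro z
    rw [norm_smul, Complex.norm_real, Real.norm_of_nonneg (by positivity)]
  have havg : ∀ (f : G → A) (c : ℝ), (∀ g, ‖f g‖ ≤ c) → ‖((N⁻¹ : ℝ) : ℂ) • ∑ g, f g‖ ≤ c := by
    intro f c hf
    rw [hsmul]
    have h1 : ‖∑ g, f g‖ ≤ N * c := by
      refine (norm_sum_le_of_le _ (fun g _ => hf g)).trans (le_of_eq ?_)
      simp [hNdef]
    calc N⁻¹ * ‖∑ g, f g‖ ≤ N⁻¹ * (N * c) := by gcongr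
      _ = c := by field_simp
  have hone : ∀ z : A, z = ((N⁻¹ : ℝ) : ℂ) • ∑ _g : G, z := by
    intro z
    have h1 : (∑ _g : G, z) = (N : ℂ) • z := by
      rw [Finset.sum_const, Finset.card_univ, hNdef, ← Nat.cast_smul_eq_nsmul ℂ]
      norm_cast
    rw [h1, smul_smul]
    have h2 : ((N⁻¹ : ℝ) : ℂ) * (N : ℂ) = 1 := by
      rw [← Complex.ofReal_mul, inv_mul_cancel₀ hNpos.ne', Complex.ofReal_one]
    rw [h2, one_smul]
  have hyR : ∀ q i, ‖y q i‖ ≤ R := fun q i => havg _ _ fun g => (hαn g _).trans (hxR q i)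
  have hyfix : ∀ q i g, α g (y q i) = y q i := by
    intro q i g
    rw [hy]
    show α g (((N⁻¹ : ℝ) : ℂ) • ∑ g, α g (x q i)) = _
    rw [map_smul, map_sum]
    congr 1
    have e : ∀ k, α g (α k (x q i)) = α (g * k) (x q i) := fun k => by rw [map_mul]; rfl
    simp only [e]
    exact Fintype.sum_equiv (Equiv.mulLeft g) _ _ fun k => rfl
  have hyE : ∀ q i, ∃ z : E, κ z = y q i := by
    intro q i
    have : y q i ∈ Set.range κ := by rw [hr]; exact fun g => hyfix q i g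
    exact this
  choose z hz using hyE
  have hd : ∀ a ∈ F, ∀ q i, ‖κ a * y q i - κ a * x q i‖ ≤ δ := by
    intro a ha q i
    have e : κ a * y q i - κ a * x q i =
        ((N⁻¹ : ℝ) : ℂ) • ∑ g, κ a * (α g (x q i) - x q i) := by
      conv_lhs => rw [hone (κ a * x q i)]
      rw [hy]
      simp only [mul_sub, Finset.sum_sub_distrib, smul_sub, mul_smul_comm, Finset.mul_sum]
    rw [e]
    exact havg _ _ fun g => hx3 q i g (Finset.mem_univ g) (κ a) (Finset.mem_image_of_mem κ ha)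
  have hafix : ∀ a : E, ∀ g, α g (κ a) = κ a := by
    intro a
    have : κ a ∈ Set.range κ := ⟨a, rfl⟩
    rw [hr] at this
    exact this
  have hc : ∀ a ∈ F, ∀ q i, ‖y q i * κ a - κ a * y q i‖ ≤ δ := by
    intro a ha q i
    have e : y q i * κ a - κ a * y q i =
        ((N⁻¹ : ℝ) : ℂ) • ∑ g, α g (x q i * κ a - κ a * x q i) := by
      rw [hy]
      simp only [map_sub, map_mul, hafix a, Finset.sum_sub_distrib, smul_sub, mul_smul_comm,
        smul_mul_assoc, Finset.mul_sum, Finset.sum_mul]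
    rw [e]
    exact havg _ _ fun g => (hαn g _).trans (hx2 q i (κ a) (Finset.mem_image_of_mem κ ha))
  refine ⟨z, fun q i => ?_, fun q i a ha => ?_, fun q i g _ a _ => ?_, fun a ha => ?_⟩
  · rw [← hnorm, hz]; exact hyR q i
  · rw [← hnorm, map_sub, map_mul, map_mul, hz]
    exact (hc a ha q i).trans hδle
  · have e : (1 : PUnit.{1} →* (E ≃⋆ₐ[ℂ] E)) g (z q i) = z q i := rfl
    rw [e, sub_self, mul_zero, norm_zero]
    exact hε.le
  · rw [← hnorm, map_sub, map_mul, map_sum]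
    simp only [map_mul, map_sub, hz]
    have h1 := fix_W (a := κ a) (x := x) (y := y) hxR hyR
      (fun q i => hx2 q i (κ a) (Finset.mem_image_of_mem κ ha)) (hd a ha)
    have h2 := hx4 (κ a) (Finset.mem_image_of_mem κ ha)
    have e : κ a * ∑ i, y 0 i * (y 1 i * y 2 i - y 2 i * y 1 i) * y 3 i - κ a =
        (κ a * ∑ i, y 0 i * (y 1 i * y 2 i - y 2 i * y 1 i) * y 3 i -
          κ a * ∑ i, x 0 i * (x 1 i * x 2 i - x 2 i * x 1 i) * x 3 i) +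
        (κ a * ∑ i, x 0 i * (x 1 i * x 2 i - x 2 i * x 1 i) * x 3 i - κ a) := by abel
    rw [e]
    refine (norm_add_le _ _).trans ?_
    linarith

theorem separable_of_fixed {E : Type u} [NonUnitalCStarAlgebra E]
    [TopologicalSpace.SeparableSpace A] (κ : E →⋆ₙₐ[ℂ] A) (hκ : Function.Injective κ) :
    TopologicalSpace.SeparableSpace E := by
  have hiso : Isometry κ := AddMonoidHomClass.isometry_of_norm κ
    (NonUnitalStarAlgHom.norm_map κ hκ)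
  have : SecondCountableTopology A := UniformSpace.secondCountable_of_separable A
  have := hiso.isEmbedding.secondCountableTopology
  infer_instance

end Vale.Agent.P095.H586
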