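import Vale.Agent.P095.Bdl.B19
import Vale.Agent.P095.H586.Bridge
import Vale.Agent.P095.H586.Fixed

/-!
The local form of absence of characters for actions of amenable groups, and its consequences.
-/

open Filter Topology
open scoped MultiplierAlgebra TensorProduct

namespace Vale.Agent.P095.H586

universe u w

open Vale.Agent.P101 Vale.Agent.P095K Vale.Agent.P095R Vale.Agent.P095.H987 Vale.Agent.P095
  Vale.Agent.P095J Vale.Agent.P095N Vale.Agent.P133 Vale.Agent.P095M

/-- The local form, from the absence of characters for the ideal of the unitization. -/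
theorem noCharLocalN_of_ideal {A : Type u} [NonUnitalCStarAlgebra A]
    [TopologicalSpace.SeparableSpace A] (hne : ∃ a : A, a ≠ 0)
    (hS : SimpleI (inrIdeal A)) (hN : IsNuclearN A) (hNC : NoCharLocI (inrIdeal A))
    {G : Type w} [Group G] [Countable G] (hG : IsAmenable G) (α : G →* (A ≃⋆ₐ[ℂ] A)) :
    NoCharLocalN α := by
  let _ : PartialOrder (Unitization ℂ A) := CStarAlgebra.spectralOrder _
  have _ : StarOrderedRing (Unitization ℂ A) := CStarAlgebra.spectralOrderedRing _
  obtain ⟨a, ha⟩ := hne
  have h : LocalNoCharR (inrIdeal A) (unitAct α) :=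
    localNoCharR_of hS ⟨a, inr_mem a, fun h => ha (Unitization.inr_injective (R := ℂ) h)⟩
      sepI_inrIdeal (isNuclear_unitization hN) hNC _ (invI_unitAct α) hG
  exact noCharLocalN_of_wst α (wstLocalN_of_localNoCharR (invI_unitAct α)
    (unitMult A) (fun a => (Unitization.inr a : Unitization ℂ A)) (fun a => inr_mem a)
    (fun a => unitMult_inr a) (fun g x => unitMult_act α g x) h)

/-- The local form, for the algebras of the question. -/
theorem noCharLocalN_main {A Z B : Type u} [NonUnitalCStarAlgebra A] [CStarAlgebra Z]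
    [NonUnitalCStarAlgebra B] [TopologicalSpace.SeparableSpace A] (hS : IsSimpleAlg A)
    (hA : IsNuclearAlg A) (hZ : IsJiangSuAlgebra Z) (hZ' : IsStronglySelfAbsorbing Z)
    (T : A →ₗ[ℂ] Z →ₗ[ℂ] B) (hB : IsTensorProd T) (hAB : Nonempty (A ≃⋆ₐ[ℂ] B))
    {G : Type w} [Group G] [Countable G] (hG : IsAmenable G) (α : G →* (A ≃⋆ₐ[ℂ] A)) :
    NoCharLocalN α :=
  noCharLocalN_of_ideal hS.nonzero (simpleI_inr (isSimpleN_of_alg hS)) hA
    (noCharLocI_of_zstable hZ hZ' T hB.isTensorCompletionN hAB) hG α

/-- Fixed point algebras of finite groups. -/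
theorem fixedPointsAbsorb_of {A : Type u} [NonUnitalCStarAlgebra A]
    [TopologicalSpace.SeparableSpace A] {G : Type w} [Group G] [Finite G]
    (α : G →* (A ≃⋆ₐ[ℂ] A)) (h : NoCharLocalN α) : FixedPointsAbsorb α := by
  intro E _ κ hκ hr
  have := separable_of_fixed κ hκ
  exact absorbs_of_noChar (noChar_of_fixed α h κ hκ hr)

end Vale.Agent.P095.H586
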