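import Vale.Agent.P095.H985.Main
import Vale.Agent.P095.H987.Crossed
import Vale.Agent.P095.H681.Local
import Vale.Agent.P095.H586.Local

/-!
Assembly of the stronger form.
-/

open Filter Topology
open scoped MultiplierAlgebra TensorProduct

namespace Vale.Agent.P095.H586

universe u w

open Vale.Agent.P101 Vale.Agent.P095K Vale.Agent.P095R Vale.Agent.P095 Vale.Agent.P095H

variable {A Z B : Type u} [NonUnitalCStarAlgebra A] [CStarAlgebra Z] [NonUnitalCStarAlgebra B]
  [TopologicalSpace.SeparableSpace A]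

/-- Crossed products. -/
theorem crossedProductsAbsorb_of {G : Type w} [Group G] [Countable G]
    (α : G →* (A ≃⋆ₐ[ℂ] A)) (h : NoCharLocalN α) : CrossedProductsAbsorb α := by
  intro C D _ _ ω π v ι hc
  have := Vale.Agent.P095.H987.separable_of_covariant hc
  exact absorbs_of_noChar (Vale.Agent.P095.H987.noChar_of_covariant h hc)

/-- Simple nuclear algebras, groups with amenable image modulo centrally trivial
automorphisms. -/
theorem simple_nuclear_outer (hS : IsSimpleAlg A) (hA : IsNuclearAlg A)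
    (hZ : IsJiangSuAlgebra Z) (hZ' : IsStronglySelfAbsorbing Z) (T : A →ₗ[ℂ] Z →ₗ[ℂ] B)
    (hB : IsTensorProd T) {μ : Filter ℕ} [NeBot μ] (hμ : μ ≤ atTop) :
    List.TFAE [Nonempty (A ≃⋆ₐ[ℂ] B),
      KR.HasNoCharacters (1 : PUnit.{1} →* (A ≃⋆ₐ[ℂ] A)) μ,
      ∀ (G : Type w) [Group G] [Countable G] (N : Subgroup G) [N.Normal],
        IsAmenable (G ⧸ N) → ∀ (α : G →* (A ≃⋆ₐ[ℂ] A)) (β : G →* (B ≃⋆ₐ[ℂ] B)),
          (∀ n ∈ N, IsInner (α n) ∨ IsCentrallyTrivial (α n)) →
          (∀ g a z, β g (T a z) = T (α g a) z) → IsStrongCocycleConj (fun a => T a 1) α β] := by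
  have h0 := KR.simple_nuclear.{u, w} hS hA hZ hZ' hB hμ
  tfae_have 1 ↔ 2 := h0.out 0 1
  tfae_have 1 → 3 := by
    intro hAB G _ _ N _ hQ α β hα hβ
    exact Vale.Agent.P095.H413.strong_of_local α
      (Vale.Agent.P095H.noCharLocalN_main hS hA hZ hZ' T hB hAB N hQ α hα) T β hZ
      hB.isTensorCompletionN hβ
  tfae_have 3 → 1 := by
    intro h
    have hG : IsAmenable (PUnit.{w + 1} ⧸ (⊤ : Subgroup PUnit.{w + 1})) := by
      classical
      intro S ε hε
      have hsub : Subsingleton (PUnit.{w + 1} ⧸ (⊤ : Subgroup PUnit.{w + 1})) :=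
        QuotientGroup.subsingleton_quotient_top
      refine ⟨{1}, Finset.singleton_nonempty _, fun s _ => ?_⟩
      have h1 : Finset.filter (fun g : PUnit.{w + 1} ⧸ (⊤ : Subgroup PUnit.{w + 1}) =>
          s * g ∉ ({1} : Finset (PUnit.{w + 1} ⧸ (⊤ : Subgroup PUnit.{w + 1})))) {1} = ∅ := by
        rw [Finset.filter_eq_empty_iff]
        intro g _ hg
        exact hg (Finset.mem_singleton.2 (Subsingleton.elim _ _))
      have h2 : ((Finset.card (Finset.filter
          (fun g : PUnit.{w + 1} ⧸ (⊤ : Subgroup PUnit.{w + 1}) =>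
          s * g ∉ ({1} : Finset (PUnit.{w + 1} ⧸ (⊤ : Subgroup PUnit.{w + 1})))) {1}) : ℕ) : ℝ) ≤
            ε * ((({1} : Finset (PUnit.{w + 1} ⧸ (⊤ : Subgroup PUnit.{w + 1}))).card : ℕ) : ℝ) := by
        rw [h1]
        simpa using hε.le
      convert h2
    obtain ⟨Φ, -⟩ := (h PUnit.{w + 1} ⊤ hG 1 1 (fun _ _ => Or.inl
      ⟨1, one_mem _, fun a => by rw [star_one, mul_one, one_mul]; rfl⟩) fun _ _ _ => rfl).conj
    exact ⟨Φ⟩
  tfae_finish

end Vale.Agent.P095.H586
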